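import Vale.Agent.P319.S2.H510.Defs2

/-! P319, block S2: piece 8 (one step of `PrData`). -/

namespace Vale.Agent.P319.S2.H681

open Finset Matrix Vale.Agent.P319.SC Vale.Agent.P319.SC.H323 Vale.Agent.P319.SC.H235
  Vale.Agent.P319.S2

set_option linter.all false

variable {V ι : Type} [Fintype V] [DecidableEq V] [DecidableEq ι] {m k : ℕ}

theorem mem_C3 (𝒟 : Cfg V ι k) (v v' z t : V) : t ∈ C3 𝒟 v v' z ↔ 𝒟.c3 v v' t = 𝒟.c3 v v' z := by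
  rw [C3, mem_filter, and_iff_right (mem_univ _)]

theorem C3_sub (𝒟 : Cfg V ι k) (hk : 3 ≤ k) (v v' z : V) : C3 𝒟 v v' z ⊆ 𝒟.cls (𝒟.c1 z) := by
  intro t ht
  rw [mem_C3] at ht
  rw [𝒟.mem_cls]
  exact (𝒟.c1_of_c2 (by omega) (𝒟.c3_sub hk ht).2.1).2

theorem C3_card (𝒟 : Cfg V ι k) (hk : 3 ≤ k) {v v' z w w' t : V}
    (h : 𝒟.c3 v v' z = 𝒟.c3 w w' t) : (C3 𝒟 v v' z).card = (C3 𝒟 w w' t).card := by
  obtain ⟨e, he⟩ := 𝒟.ext2 hk (𝒟.c3_sub hk h).1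
  refine Finset.card_bij (fun a _ => e a) ?_ ?_ ?_
  · intro a ha
    rw [mem_C3] at ha ⊢
    rw [← he, ha, h]
  · intro a _ b _ hab
    exact e.injective hab
  · intro b hb
    refine ⟨e.symm b, ?_, e.apply_symm_apply b⟩
    rw [mem_C3] at hb ⊢
    rw [he, e.apply_symm_apply, hb, h]

theorem cnt_mono {P P' Q Q' : Finset V} (h : P ⊆ Q) (h' : P' ⊆ Q') (S : V → V → Prop) :
    cnt P P' S ≤ cnt Q Q' S := by
  unfold cnt
  refine le_trans (Finset.sum_le_sum fun a _ => Finset.sum_le_sum_of_subset_of_nonneg h'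
    fun _ _ _ => chi_nonneg _) ?_
  exact Finset.sum_le_sum_of_subset_of_nonneg h fun _ _ _ =>
    Finset.sum_nonneg fun _ _ => chi_nonneg _

theorem chi_or (p q : Prop) : chi (p ∨ q) ≤ chi p + chi q := by
  by_cases hp : p
  · rw [chi_pos (Or.inl hp), chi_pos hp]
    linarith [chi_nonneg q]
  · by_cases hq : q
    · rw [chi_pos (Or.inr hq), chi_pos hq]
      linarith [chi_nonneg p]
    · rw [chi_neg (not_or.2 ⟨hp, hq⟩)]
      linarith [chi_nonneg p, chi_nonneg q]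

/-- the light points -/
theorem light_le (ℰ : Cfg V ι k) (v v' : V) (P : Finset V) {N : ℕ} {κ : ℝ} (hκ : 0 ≤ κ)
    (hN : (P.image fun z => ℰ.c3 v v' z).card ≤ N) :
    ∑ z ∈ P, chi (((C3 ℰ v v' z).card : ℝ) < κ * P.card) ≤ N * κ * P.card := by
  classical
  rw [sum_chi P fun z => ((C3 ℰ v v' z).card : ℝ) < κ * P.card, mul_assoc]
  refine light_count P (fun z => ℰ.c3 v v' z) hN (by positivity) _ ?_
  intro z _ hz
  refine le_trans ?_ hz.le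
  exact_mod_cast card_le_card fun t ht => (mem_C3 _ _ _ _ _).2 (mem_filter.1 ht).2

/-- the count of the new light points -/
theorem L_step (hTr : TraceStmt) (𝒟 : Cfg V ι (k + 3)) (hk : 3 ≤ k) {D : ℕ} (hD1 : 1 ≤ D)
    (hD : BigRank 𝒟 D) {L : V → V → V → Prop} (hL : Inv3R 𝒟 L) {x x₁ v v' : V} {Λ κ l : ℝ} {N : ℕ}
    (hΛ : 1 ≤ Λ) (hκ : 0 < κ) (hκ1 : κ ≤ 1) (hl : 0 ≤ l)
    (h1 : κ * ((𝒟.cls (𝒟.c1 x)).card : ℝ) ≤ (C3 𝒟 v v' x).card)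
    (h2 : ((𝒟.cls (𝒟.c1 x₁)).card : ℝ) ≤ Λ * (𝒟.val x (𝒟.c2 x x₁) : ℝ))
    (h3 : ∑ z ∈ 𝒟.cls (𝒟.c1 x₁), chi (L v v' z) ≤ l * (𝒟.cls (𝒟.c1 x₁)).card)
    (h4 : (((𝒟.fix x).cls ((𝒟.fix x).c1 x₁)).image fun z => (𝒟.fix x).c3 v v' z).card ≤ N) :
    ∑ z ∈ (𝒟.fix x).cls ((𝒟.fix x).c1 x₁), chi (L v v' z ∨ ((C3 (𝒟.fix x) v v' z).card : ℝ) <
      κ * ((𝒟.fix x).cls ((𝒟.fix x).c1 x₁)).card) ≤
      (l + (Λ / κ) / Real.sqrt D + N * κ) * ((𝒟.fix x).cls ((𝒟.fix x).c1 x₁)).card := by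
  have fc1 : ∀ a, (𝒟.fix x).c1 a = 𝒟.c2 x a := fun a =>
    Cfg.fix_c1 (m := k + 2) 𝒟 (by omega) x a
  have clsE : (𝒟.fix x).cls ((𝒟.fix x).c1 x₁) = univ.filter (fun t => 𝒟.c2 x t = 𝒟.c2 x x₁) := by
    ext t
    rw [Cfg.mem_cls, fc1, fc1, mem_filter, and_iff_right (mem_univ _)]
  have cardE : (((𝒟.fix x).cls ((𝒟.fix x).c1 x₁)).card : ℝ) = (𝒟.val x (𝒟.c2 x x₁) : ℝ) := by
    rw [clsE]; rfl
  have sD : 0 < Real.sqrt D := Real.sqrt_pos.2 (by exact_mod_cast hD1)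
  have a1 := hTr V ι (k + 3) 𝒟 (by omega) D hD L hL v v' x x₁ Λ κ l hΛ hκ hκ1 hl h1 h2 h3
  rw [← cardE, ← clsE] at a1
  set P₁ := (𝒟.fix x).cls ((𝒟.fix x).c1 x₁) with hP₁
  have a2 := light_le (𝒟.fix x) v v' P₁ hκ.le h4
  have a3 : ∑ z ∈ P₁, chi (L v v' z) ≤ (l + (Λ / κ) / Real.sqrt D) * P₁.card := by
    have : ∑ z ∈ P₁, chi (L v v' z) ≤ ((Real.sqrt D * l + Λ / κ) * P₁.card) / Real.sqrt D := by
      rw [le_div_iff₀ sD, mul_comm]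
      exact a1
    refine this.trans (le_of_eq ?_)
    field_simp
  calc ∑ z ∈ P₁, chi (L v v' z ∨ ((C3 (𝒟.fix x) v v' z).card : ℝ) < κ * P₁.card)
      ≤ ∑ z ∈ P₁, (chi (L v v' z) + chi (((C3 (𝒟.fix x) v v' z).card : ℝ) < κ * P₁.card)) :=
        Finset.sum_le_sum fun z _ => chi_or _ _
    _ = ∑ z ∈ P₁, chi (L v v' z) +
        ∑ z ∈ P₁, chi (((C3 (𝒟.fix x) v v' z).card : ℝ) < κ * P₁.card) :=
        Finset.sum_add_distrib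
    _ ≤ (l + (Λ / κ) / Real.sqrt D) * P₁.card + N * κ * P₁.card := add_le_add a3 a2
    _ = _ := by ring

/-- **piece 8** -/
theorem prStep : PrStepStmt := by
  classical
  intro hTr hNB hAv V ι _ _ _ k 𝒟 hk D hD1 hD hDD f hf hf2 𝒯 h𝒯 x y x₁ y₁ η b l Λ κ N hη hb hl hΛ
    hκ hκ1 hx₁ hy₁ hΛx hΛy hN0 hN1 hN2 Bad L L' hP
  have fc1 : ∀ a, (𝒟.fix x).c1 a = 𝒟.c2 x a := fun a =>
    Cfg.fix_c1 (m := k + 2) 𝒟 (by omega) x a
  have fc2 : ∀ a c, (𝒟.fix x).c2 a c = 𝒟.c3 x a c := fun a c =>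
    Cfg.fix_c2 (m := k + 2) 𝒟 (by omega) x a c
  have fc3 : ∀ a c d, (𝒟.fix x).c3 a c d = 𝒟.c4 x a c d := fun a c d =>
    Cfg.fix_c3 (m := k + 2) 𝒟 (by omega) x a c d
  have clsE : ∀ z, (𝒟.fix x).cls ((𝒟.fix x).c1 z) =
      univ.filter (fun t => 𝒟.c2 x t = 𝒟.c2 x z) := by
    intro z
    ext t
    rw [Cfg.mem_cls, fc1, fc1, mem_filter, and_iff_right (mem_univ _)]
  have cardE : ∀ z, (((𝒟.fix x).cls ((𝒟.fix x).c1 z)).card : ℝ) = (𝒟.val x (𝒟.c2 x z) : ℝ) := by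
    intro z
    rw [clsE]; rfl
  have subE : ∀ z, (𝒟.fix x).cls ((𝒟.fix x).c1 z) ⊆ 𝒟.cls (𝒟.c1 z) := by
    intro z t ht
    rw [clsE, mem_filter] at ht
    rw [Cfg.mem_cls]
    exact (𝒟.c1_of_c2 (by omega) ht.2).2
  have c3E : ∀ v v' z w w' t, (𝒟.fix x).c3 v v' z = (𝒟.fix x).c3 w w' t →
      𝒟.c3 v v' z = 𝒟.c3 w w' t := by
    intro v v' z w w' t h
    rw [fc3, fc3] at h
    exact (𝒟.c4_sub (by omega) h).2.2.2
  have C3E : ∀ v v' z, C3 (𝒟.fix x) v v' z ⊆ C3 𝒟 v v' z := by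
    intro v v' z t ht
    rw [mem_C3] at ht ⊢
    exact c3E _ _ _ _ _ _ ht
  have sD : 0 < Real.sqrt D := Real.sqrt_pos.2 (by exact_mod_cast hD1)
  have hP₁ : (𝒟.fix x).cls ((𝒟.fix x).c1 x₁) ⊆ 𝒟.cls (𝒟.c1 x) := by
    have := subE x₁
    rwa [hx₁] at this
  have hQ₁ : (𝒟.fix x).cls ((𝒟.fix x).c1 y₁) ⊆ 𝒟.cls (𝒟.c1 y) := by
    have := subE y₁
    rwa [hy₁] at this
  have hPpos : (0 : ℝ) < (𝒟.cls (𝒟.c1 x)).card := by exact_mod_cast 𝒟.cls_pos x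
  have hΛP : ((𝒟.cls (𝒟.c1 x)).card : ℝ) ≤ Λ * ((𝒟.fix x).cls ((𝒟.fix x).c1 x₁)).card := by
    rw [cardE]; exact hΛx
  have hΛQ : ((𝒟.cls (𝒟.c1 y)).card : ℝ) ≤ Λ * ((𝒟.fix x).cls ((𝒟.fix x).c1 y₁)).card := by
    rw [cardE]; exact hΛy
  have hΛ0 : 0 < Λ := by linarith
  refine ⟨fun v v' => Bad v v' ∨ ((C3 𝒟 v v' x).card : ℝ) < κ * (𝒟.cls (𝒟.c1 x)).card,
    fun v v' z => L v v' z ∨ ((C3 (𝒟.fix x) v v' z).card : ℝ) <
      κ * ((𝒟.fix x).cls ((𝒟.fix x).c1 x₁)).card,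
    fun v v' z => L' v v' z ∨ ((C3 (𝒟.fix x) v v' z).card : ℝ) <
      κ * ((𝒟.fix x).cls ((𝒟.fix x).c1 y₁)).card, ?_, ?_, ?_, ?_, ?_, ?_, ?_⟩
  · intro v v' w w' h
    rw [fc2, fc2] at h
    have h2 := (𝒟.c3_sub (by omega) h).2.2
    have h3 : 𝒟.c3 v v' x = 𝒟.c3 w w' x := 𝒟.c3_rot (by omega) h
    beta_reduce
    rw [hP.bad_inv _ _ _ _ h2, C3_card 𝒟 (by omega) h3]
  · intro v v' z w w' t h
    beta_reduce
    rw [hP.L_inv _ _ _ _ _ _ (c3E _ _ _ _ _ _ h), C3_card (𝒟.fix x) (by omega) h]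
  · intro v v' z w w' t h
    beta_reduce
    rw [hP.L'_inv _ _ _ _ _ _ (c3E _ _ _ _ _ _ h), C3_card (𝒟.fix x) (by omega) h]
  · -- the number of the bad pairs
    set P := 𝒟.cls (𝒟.c1 x) with hPd
    set P₁ := (𝒟.fix x).cls ((𝒟.fix x).c1 x₁) with hP₁d
    have b1 := cnt_step 𝒟 (by omega) hD (S := Bad) hP.bad_inv (𝒟.c1 x) (𝒟.c1 x) hP₁ hP₁ hΛ0.le
      hΛP hΛP
    rw [← hPd] at b1
    have b2 := hNB V ι (k + 3) 𝒟 (by omega) x κ N hκ.le hN0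
    rw [← hPd] at b2
    have b3 : cnt P₁ P₁ Bad ≤ (b + Λ / Real.sqrt D) * (P₁.card : ℝ) ^ 2 := by
      have c1 : cnt P₁ P₁ Bad - cnt P P Bad / (P.card * P.card) * ((P₁.card : ℝ) * P₁.card) ≤
          (Λ * (P₁.card * P₁.card)) / Real.sqrt D := by
        rw [le_div_iff₀ sD, mul_comm]
        exact le_trans (mul_le_mul_of_nonneg_left (le_abs_self _) sD.le) b1
      have c2 : cnt P P Bad / (P.card * P.card) ≤ b := by
        rw [div_le_iff₀ (by positivity)]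
        have := hP.bad_cnt
        rw [← hPd] at this
        refine this.trans (le_of_eq ?_)
        ring
      have c3 : cnt P P Bad / (P.card * P.card) * ((P₁.card : ℝ) * P₁.card) ≤
          b * ((P₁.card : ℝ) * P₁.card) := mul_le_mul_of_nonneg_right c2 (by positivity)
      have c4 : (b + Λ / Real.sqrt D) * (P₁.card : ℝ) ^ 2 = b * ((P₁.card : ℝ) * P₁.card) +
          (Λ * (P₁.card * P₁.card)) / Real.sqrt D := by ring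
      rw [c4]
      linarith
    have b4 : cnt P₁ P₁ (fun v v' => ((C3 𝒟 v v' x).card : ℝ) < κ * P.card) ≤
        N * κ * Λ ^ 2 * (P₁.card : ℝ) ^ 2 := by
      calc cnt P₁ P₁ (fun v v' => ((C3 𝒟 v v' x).card : ℝ) < κ * P.card)
          ≤ cnt P P (fun v v' => ((C3 𝒟 v v' x).card : ℝ) < κ * P.card) := cnt_mono hP₁ hP₁ _
        _ ≤ N * κ * (P.card : ℝ) ^ 2 := b2
        _ ≤ N * κ * (Λ * P₁.card) ^ 2 :=
          mul_le_mul_of_nonneg_left (pow_le_pow_left₀ hPpos.le hΛP 2) (by positivity)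
        _ = _ := by ring
    calc cnt P₁ P₁ (fun v v' => Bad v v' ∨ ((C3 𝒟 v v' x).card : ℝ) < κ * P.card)
        ≤ cnt P₁ P₁ Bad + cnt P₁ P₁ (fun v v' => ((C3 𝒟 v v' x).card : ℝ) < κ * P.card) := by
          unfold cnt
          rw [← Finset.sum_add_distrib]
          refine Finset.sum_le_sum fun a _ => ?_
          rw [← Finset.sum_add_distrib]
          exact Finset.sum_le_sum fun c _ => chi_or _ _
      _ ≤ (b + Λ / Real.sqrt D) * (P₁.card : ℝ) ^ 2 + N * κ * Λ ^ 2 * (P₁.card : ℝ) ^ 2 :=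
        add_le_add b3 b4
      _ = _ := by ring
  · intro v hv v' hv' hT hB
    rw [not_or] at hB
    refine L_step hTr 𝒟 hk hD1 hD hP.L_inv hΛ hκ hκ1 hl (not_lt.1 hB.2) ?_ ?_
      (hN1 v (hP₁ hv) v' (hP₁ hv'))
    · rw [hx₁]; exact hΛx
    · rw [hx₁]; exact hP.L_cnt v (hP₁ hv) v' (hP₁ hv') hT hB.1
  · intro v hv v' hv' hT hB
    rw [not_or] at hB
    refine L_step hTr 𝒟 hk hD1 hD hP.L'_inv hΛ hκ hκ1 hl (not_lt.1 hB.2) ?_ ?_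
      (hN2 v (hP₁ hv) v' (hP₁ hv'))
    · rw [hy₁]; exact hΛy
    · rw [hy₁]; exact hP.L'_cnt v (hP₁ hv) v' (hP₁ hv') hT hB.1
  · intro v hv v' hv' hT hB z hz t ht hLz hLt
    rw [not_or] at hB hLz hLt
    have hz' := hP₁ hz
    have ht' := hQ₁ ht
    have e1 : ((C3 𝒟 v v' z).card : ℝ) ≤ (Λ / κ) * (C3 (𝒟.fix x) v v' z).card := by
      have d1 : ((C3 𝒟 v v' z).card : ℝ) ≤ (𝒟.cls (𝒟.c1 x)).card := by
        have := card_le_card (C3_sub 𝒟 (by omega) v v' z)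
        rw [(𝒟.mem_cls _ _).1 hz'] at this
        exact_mod_cast this
      have d2 : ((𝒟.fix x).cls ((𝒟.fix x).c1 x₁)).card ≤
          (C3 (𝒟.fix x) v v' z).card / κ := by
        rw [le_div_iff₀ hκ, mul_comm]
        exact not_lt.1 hLz.2
      calc ((C3 𝒟 v v' z).card : ℝ) ≤ Λ * ((𝒟.fix x).cls ((𝒟.fix x).c1 x₁)).card := d1.trans hΛP
        _ ≤ Λ * ((C3 (𝒟.fix x) v v' z).card / κ) := mul_le_mul_of_nonneg_left d2 hΛ0.le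
        _ = _ := by ring
    have e2 : ((C3 𝒟 v v' t).card : ℝ) ≤ (Λ / κ) * (C3 (𝒟.fix x) v v' t).card := by
      have d1 : ((C3 𝒟 v v' t).card : ℝ) ≤ (𝒟.cls (𝒟.c1 y)).card := by
        have := card_le_card (C3_sub 𝒟 (by omega) v v' t)
        rw [(𝒟.mem_cls _ _).1 ht'] at this
        exact_mod_cast this
      have d2 : ((𝒟.fix x).cls ((𝒟.fix x).c1 y₁)).card ≤
          (C3 (𝒟.fix x) v v' t).card / κ := by
        rw [le_div_iff₀ hκ, mul_comm]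
        exact not_lt.1 hLt.2
      calc ((C3 𝒟 v v' t).card : ℝ) ≤ Λ * ((𝒟.fix x).cls ((𝒟.fix x).c1 y₁)).card := d1.trans hΛQ
        _ ≤ Λ * ((C3 (𝒟.fix x) v v' t).card / κ) := mul_le_mul_of_nonneg_left d2 hΛ0.le
        _ = _ := by ring
    have e3 := hAv V ι k 𝒟 hk D hDD f hf hf2 x v v' z t η (Λ / κ) hη (by positivity) e1 e2
      (hP.avg v (hP₁ hv) v' (hP₁ hv') hT hB.1 z hz' t ht' hLz.1 hLt.1)
    have e4 : |∑ a ∈ C3 (𝒟.fix x) v v' z, ∑ c ∈ C3 (𝒟.fix x) v v' t, f v a c * f v' a c| ≤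
        ((Real.sqrt D * η + 4 * (Λ / κ)) * (((C3 (𝒟.fix x) v v' z).card : ℝ) *
          (C3 (𝒟.fix x) v v' t).card)) / Real.sqrt D := by
      rw [le_div_iff₀ sD, mul_comm]
      exact e3
    refine e4.trans (le_of_eq ?_)
    field_simp

end Vale.Agent.P319.S2.H681
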